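import Vale.Agent.P128.Defs

/-!
# P128, piece L: networks in the unit disc (chord, star with one Steiner point)
-/

open MeasureTheory Set Metric Filter Complex
open scoped Topology Real

noncomputable section

namespace Vale.Agent.P128.Network

/-- Segments `S k`, `k < n`, of total length at most `ℓ`, and an index `J` on the closed unit disc,
locally constant off the segments and equal to `j` on the arc `(t j, t (j+1))`. -/
structure IsNet (t : ℕ → ℝ) (m : ℕ) (ℓ : ℝ) (n : ℕ) (S : ℕ → ℂ × ℂ) (J : ℂ → ℕ) : Prop where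
  length : ∑ k ∈ Finset.range n, dist (S k).1 (S k).2 ≤ ℓ
  loc : ∀ z : ℂ, ‖z‖ ≤ 1 → (∀ k < n, z ∉ segment ℝ (S k).1 (S k).2) →
    ∀ᶠ y in 𝓝[closedBall 0 1] z, J y = J z
  inDisc : ∀ k < n, ‖(S k).1‖ ≤ 1 ∧ ‖(S k).2‖ ≤ 1
  arc : ∀ j < m, ∀ θ ∈ Ioo (t j) (t (j + 1)), J (exp (θ * I)) = j

theorem exists_net_one (t : ℕ → ℝ) : ∃ n S J, IsNet t 1 0 n S J :=
  ⟨0, fun _ => (0, 0), fun _ => 0, by simp, fun z _ _ => Eventually.of_forall fun _ => rfl,
    fun k hk => by omega, fun j hj θ _ => by omega⟩

theorem exp_sub_mul (θ M : ℝ) : exp (θ * I) * exp (-(M * I)) = exp (((θ - M : ℝ) : ℂ) * I) := by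
  rw [← exp_add]; push_cast; ring_nf

theorem exp_rot_cancel (z : ℂ) (M : ℝ) : exp (M * I) * (z * exp (-(M * I))) = z := by
  rw [mul_comm z, ← mul_assoc, ← exp_add, add_neg_cancel, exp_zero, one_mul]

theorem norm_rot (z : ℂ) (M : ℝ) : ‖z * exp (-(M * I))‖ = ‖z‖ := by
  have : exp (-(M * I)) = exp (((-M : ℝ) : ℂ) * I) := by push_cast; ring_nf
  rw [norm_mul, this, norm_exp_ofReal_mul_I, mul_one]

/-- A point of a vertical chord lies on the segment between its ends. -/
theorem mem_segment_rot {M c s : ℝ} {z : ℂ} (hs : 0 < s)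
    (hre : (z * exp (-(M * I))).re = c) (him : |(z * exp (-(M * I))).im| ≤ s) :
    z ∈ segment ℝ (exp (M * I) * (c - s * I)) (exp (M * I) * (c + s * I)) := by
  set w := z * exp (-(M * I)) with hw
  have h := abs_le.1 him
  refine ⟨(s - w.im) / (2 * s), (s + w.im) / (2 * s), ?_, ?_, ?_, ?_⟩
  · exact div_nonneg (by linarith) (by linarith)
  · exact div_nonneg (by linarith) (by linarith)
  · field_simp; ring
  · conv_rhs => rw [← exp_rot_cancel z M, ← hw, ← re_add_im w, hre]
    simp only [real_smul]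
    push_cast
    have : (s : ℂ) ≠ 0 := by exact_mod_cast hs.ne'
    field_simp
    ring

theorem dist_rot (M : ℝ) (a b : ℂ) : dist (exp (M * I) * a) (exp (M * I) * b) = ‖a - b‖ := by
  rw [dist_eq_norm, ← mul_sub, norm_mul, norm_exp_ofReal_mul_I, one_mul]

theorem exists_net_two (t : ℕ → ℝ) (h0 : t 0 < t 1) (h1 : t 1 < t 2)
    (h2 : t 2 = t 0 + 2 * π) : ∃ n S J, IsNet t 2 (2 * Real.sin ((t 1 - t 0) / 2)) n S J := by
  set ψ : ℝ := (t 1 - t 0) / 2 with hψ
  set M : ℝ := (t 0 + t 1) / 2 with hM
  have hψ0 : 0 < ψ := by linarith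
  have hψπ : ψ < π := by linarith
  set c := Real.cos ψ with hc
  set s := Real.sin ψ with hs
  have hs0 : 0 < s := Real.sin_pos_of_pos_of_lt_pi hψ0 hψπ
  refine ⟨1, fun _ => (exp (M * I) * (c - s * I), exp (M * I) * (c + s * I)),
    fun z => if c < (z * exp (-(M * I))).re then 0 else 1, ?_, ?_, fun k _ => ?_, ?_⟩
  · rw [Finset.sum_range_one, dist_rot]
    have : ((c : ℂ) - s * I - (c + s * I)) = ((-(2 * s) : ℝ) : ℂ) * I := by push_cast; ring
    rw [this, norm_mul, norm_I, mul_one, norm_real, Real.norm_eq_abs, abs_neg,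
      abs_of_pos (by linarith)]
  · intro z hz hnot
    have hcont : ContinuousWithinAt (fun y : ℂ => (y * exp (-(M * I))).re) (closedBall 0 1) z := by
      fun_prop
    have hne : (z * exp (-(M * I))).re ≠ c := by
      intro heq
      refine hnot 0 Nat.one_pos (mem_segment_rot hs0 heq ?_)
      set w := z * exp (-(M * I)) with hw
      have h1' : ‖w‖ ^ 2 ≤ 1 := by
        rw [hw, norm_rot]; exact pow_le_one₀ (norm_nonneg _) hz
      rw [← normSq_eq_norm_sq, normSq_apply, heq] at h1'
      have hsq : |w.im| ^ 2 ≤ s ^ 2 := by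
        rw [sq_abs, hs, Real.sin_sq, ← hc]; nlinarith
      exact (pow_le_pow_iff_left₀ (abs_nonneg _) hs0.le two_ne_zero).1 hsq
    rcases lt_or_gt_of_ne hne with hlt | hgt
    · filter_upwards [hcont.tendsto.eventually_lt_const hlt] with y hy
      simp only [if_neg (not_lt.2 hlt.le), if_neg (not_lt.2 hy.le)]
    · filter_upwards [hcont.tendsto.eventually_const_lt hgt] with y hy
      simp only [if_pos hgt, if_pos hy]
  · have : ∀ σ : ℝ, σ ^ 2 = 1 → ‖exp (M * I) * ((c : ℂ) + σ * s * I)‖ ≤ 1 := by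
      intro σ hσ
      rw [norm_mul, norm_exp_ofReal_mul_I, one_mul]
      refine (pow_le_one_iff_of_nonneg (norm_nonneg _) two_ne_zero).1 ?_
      rw [← normSq_eq_norm_sq, normSq_apply]
      simp
      nlinarith [Real.cos_sq_add_sin_sq ψ]
    have h1 := this 1 (by norm_num)
    have h2 := this (-1) (by norm_num)
    simp only [ofReal_one, ofReal_neg, one_mul, neg_mul, ← sub_eq_add_neg] at h1 h2
    exact ⟨h2, h1⟩
  · intro j hj θ hθ
    simp only [exp_sub_mul, exp_ofReal_mul_I_re]
    interval_cases j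
    · rw [if_pos]
      rw [← Real.cos_abs (θ - M)]
      have : |θ - M| < ψ := by rw [abs_lt]; constructor <;> linarith [hθ.1, hθ.2]
      exact Real.strictAntiOn_cos ⟨abs_nonneg _, by linarith⟩ ⟨hψ0.le, hψπ.le⟩ this
    · rw [if_neg, ]
      refine not_lt.2 ?_
      have hlo : ψ < θ - M := by linarith [hθ.1]
      have hhi : θ - M < 2 * π - ψ := by linarith [hθ.2]
      rcases le_or_gt (θ - M) π with hle | hgt
      · exact (Real.strictAntiOn_cos ⟨hψ0.le, hψπ.le⟩ ⟨by linarith, hle⟩ hlo).le
      · rw [← Real.cos_two_pi_sub (θ - M)]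
        exact (Real.strictAntiOn_cos ⟨hψ0.le, hψπ.le⟩ ⟨by linarith, by linarith⟩
          (show ψ < 2 * π - (θ - M) by linarith)).le

/-- Half plane test for the sector with vertex `a` through `(c, ± s)`. -/
theorem wedge_boundary {a c s : ℝ} {w : ℂ} (ha : 0 < a) (hac : a < c) (hs : 0 < s)
    (hcs : c ^ 2 + s ^ 2 = 1) (hw : ‖w‖ ≤ 1) (h : |w.im| * (c - a) = s * (w.re - a)) :
    w ∈ segment ℝ (a : ℂ) (c + s * I) ∨ w ∈ segment ℝ (a : ℂ) (c - s * I) := by
  set τ := |w.im| / s with hτ
  have hτ0 : 0 ≤ τ := div_nonneg (abs_nonneg _) hs.le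
  have him : |w.im| = τ * s := by rw [hτ]; field_simp
  have hre : w.re = a + τ * (c - a) := by
    rw [him] at h
    have : s * (τ * (c - a)) = s * (w.re - a) := by linarith
    linarith [mul_left_cancel₀ hs.ne' this]
  have hτ1 : τ ≤ 1 := by
    by_contra hgt
    have hgt : 1 < τ := lt_of_not_ge hgt
    have h1 : ‖w‖ ^ 2 ≤ 1 := pow_le_one₀ (norm_nonneg _) hw
    rw [← normSq_eq_norm_sq, normSq_apply, hre] at h1
    have h2 : w.im * w.im = (τ * s) * (τ * s) := by rw [← abs_mul_abs_self w.im, him]
    have hre1 : c ≤ a + τ * (c - a) := by nlinarith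
    nlinarith [mul_lt_mul_of_pos_right hgt hs]
  rcases le_total 0 w.im with hp | hn
  · left
    rw [abs_of_nonneg hp] at him
    refine ⟨1 - τ, τ, by linarith, hτ0, by ring, ?_⟩
    conv_rhs => rw [← re_add_im w, hre, him]
    simp only [real_smul]; push_cast; ring
  · right
    rw [abs_of_nonpos hn] at him
    refine ⟨1 - τ, τ, by linarith, hτ0, by ring, ?_⟩
    conv_rhs => rw [← re_add_im w, hre, show w.im = -(τ * s) by linarith]
    simp only [real_smul]; push_cast; ring

theorem norm_vertex_sub {a c s : ℝ} (hcs : c ^ 2 + s ^ 2 = 1) (hac : a * c ≤ 1 / 2)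
    (σ : ℝ) (hσ : σ ^ 2 = 1) :
    ‖(a : ℂ) - (c + σ * s * I)‖ ≤ 1 - a * c + a ^ 2 / 2 := by
  refine (pow_le_pow_iff_left₀ (norm_nonneg _) ?_ two_ne_zero).1 ?_
  · nlinarith [sq_nonneg a]
  rw [← normSq_eq_norm_sq, normSq_apply]
  simp only [sub_re, sub_im, add_re, add_im, ofReal_re, ofReal_im, mul_re, mul_im, I_re, I_im,
    mul_zero, zero_mul, mul_one, add_zero, sub_zero, zero_add, zero_sub]
  nlinarith [sq_nonneg (a * c - a ^ 2 / 2)]

theorem mapsTo_segment_rot {M : ℝ} {p q w : ℂ} (h : w ∈ segment ℝ p q) :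
    exp (M * I) * w ∈ segment ℝ (exp (M * I) * p) (exp (M * I) * q) := by
  obtain ⟨α, β, hα, hβ, hαβ, rfl⟩ := h
  exact ⟨α, β, hα, hβ, hαβ, by simp only [real_smul]; ring⟩

/-- Star with a Steiner point in the last gap. -/
theorem exists_net_star (t : ℕ → ℝ) (m : ℕ) (q a : ℝ) (hm : 3 ≤ m)
    (hmono : ∀ j < m, t j < t (j + 1)) (htot : t m = t 0 + 2 * π)
    (ha : a = (2 * q - 1) / 2) (hq : 1 / 2 < q) (hq1 : q ≤ 1)
    (hgap : (t m - t (m - 1)) / 2 ≤ π / 2) (hcos : q ≤ Real.cos ((t m - t (m - 1)) / 2)) :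
    ∃ n S J, IsNet t m ((m : ℝ) - a ^ 2) n S J := by
  set ψ : ℝ := (t m - t (m - 1)) / 2 with hψ
  set M : ℝ := t m - ψ with hM
  set c := Real.cos ψ with hc
  set s := Real.sin ψ with hs
  have hlast : t (m - 1) < t m := by
    have := hmono (m - 1) (by omega)
    rwa [show m - 1 + 1 = m by omega] at this
  have hψ0 : 0 < ψ := by linarith
  have hψπ : ψ < π := by linarith [Real.pi_pos]
  have hs0 : 0 < s := Real.sin_pos_of_pos_of_lt_pi hψ0 hψπ
  have ha0 : 0 < a := by linarith
  have ha2 : a ≤ 1 / 2 := by linarith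
  have hc1 : c ≤ 1 := Real.cos_le_one ψ
  have hac : a < c := by linarith
  have hcs : c ^ 2 + s ^ 2 = 1 := Real.cos_sq_add_sin_sq ψ
  have hincr : ∀ i j, i < j → j ≤ m → t i < t j := by
    intro i j hij hjm
    induction j with
    | zero => omega
    | succ j ih =>
      rcases (Nat.lt_succ_iff.1 hij).eq_or_lt with rfl | h
      · exact hmono i (by omega)
      · exact (ih h (by omega)).trans (hmono j (by omega))
  let e : ℂ := exp (M * I)
  let S : ℕ → ℂ × ℂ := fun k =>
    if k = 0 then (0, e * a) else if k = 1 then (e * a, e * (c + s * I))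
      else if k = 2 then (e * a, e * (c - s * I)) else (0, exp (t (k - 2) * I))
  let rot : ℂ → ℂ := fun z => z * exp (-(M * I))
  let W : ℂ → Prop := fun w => |w.im| * (c - a) < s * (w.re - a)
  let ang : ℂ → ℝ := fun z => M - π + arg (-(rot z))
  classical
  let cn : ℂ → ℕ := fun z => ((Finset.Icc 1 (m - 2)).filter (fun k => t k ≤ ang z)).card
  refine ⟨m + 1, S, fun z => if W (rot z) then m - 1 else cn z, ?_, ?_, fun k _ => ?_, ?_⟩
  · rw [show m + 1 = 3 + (m - 2) by omega, Finset.sum_range_add]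
    have h3 : ∑ k ∈ Finset.range 3, dist (S k).1 (S k).2 ≤ a + 2 * (1 - a * q + a ^ 2 / 2) := by
      simp only [Finset.sum_range_succ, Finset.sum_range_zero, zero_add, S, e, if_true,
        if_neg (show (1:ℕ) ≠ 0 by norm_num), if_neg (show (2:ℕ) ≠ 0 by norm_num),
        if_neg (show (2:ℕ) ≠ 1 by norm_num), dist_rot]
      have h0 : dist (0 : ℂ) (exp (M * I) * a) = a := by
        rw [dist_zero_left, norm_mul, norm_exp_ofReal_mul_I, one_mul, norm_real,
          Real.norm_of_nonneg ha0.le]
      have hm1 := norm_vertex_sub (a := a) hcs (by nlinarith) 1 (by norm_num)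
      have hm2 := norm_vertex_sub (a := a) hcs (by nlinarith) (-1) (by norm_num)
      simp only [ofReal_one, ofReal_neg, one_mul, neg_mul, ← sub_eq_add_neg] at hm1 hm2
      have : a * q ≤ a * c := mul_le_mul_of_nonneg_left hcos ha0.le
      rw [h0]
      linarith
    have hrest : ∑ k ∈ Finset.range (m - 2), dist (S (3 + k)).1 (S (3 + k)).2
        = ((m - 2 : ℕ) : ℝ) := by
      rw [Finset.sum_congr rfl fun k _ => ?_, Finset.sum_const, Finset.card_range, nsmul_eq_mul,
        mul_one]
      simp only [S]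
      rw [if_neg (by omega), if_neg (by omega), if_neg (by omega), dist_zero_left,
        norm_exp_ofReal_mul_I]
    rw [hrest, Nat.cast_sub (by omega), Nat.cast_ofNat]
    nlinarith [h3]
  · intro z hz hnot
    set w := rot z with hw
    have hwn : ‖w‖ ≤ 1 := (norm_rot z M).le.trans hz
    have hzw : e * w = z := exp_rot_cancel z M
    have hT0 : w ∉ segment ℝ (0 : ℂ) (a : ℂ) := by
      intro h
      refine hnot 0 (by omega) ?_
      have := mapsTo_segment_rot (M := M) h
      simpa [S, e, ← hzw] using this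
    have hT1 : w ∉ segment ℝ (a : ℂ) (c + s * I) := by
      intro h
      refine hnot 1 (by omega) ?_
      simpa [S, e, ← hzw] using mapsTo_segment_rot (M := M) h
    have hT2 : w ∉ segment ℝ (a : ℂ) (c - s * I) := by
      intro h
      refine hnot 2 (by omega) ?_
      simpa [S, e, ← hzw] using mapsTo_segment_rot (M := M) h
    by_cases hW : W w
    · have ho : IsOpen {y : ℂ | W (rot y)} := isOpen_lt (by fun_prop) (by fun_prop)
      filter_upwards [nhdsWithin_le_nhds (ho.mem_nhds hW)] with y hy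
      have hWz : W (rot z) := hW
      have hWy : W (rot y) := hy
      simp only [if_pos hWy, if_pos hW]
    · have hne : s * (w.re - a) ≠ |w.im| * (c - a) := fun h =>
        (wedge_boundary ha0 hac hs0 hcs hwn h.symm).elim hT1 hT2
      have hlt : s * (w.re - a) < |w.im| * (c - a) := lt_of_le_of_ne (not_lt.1 hW) hne
      have ho : IsOpen {y : ℂ | s * ((rot y).re - a) < |(rot y).im| * (c - a)} :=
        isOpen_lt (by fun_prop) (by fun_prop)
      have hslit : -w ∈ slitPlane := by
        rw [mem_slitPlane_iff, neg_re, neg_im, neg_ne_zero, neg_pos]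
        by_contra hcon
        simp only [not_or, not_not, not_lt] at hcon
        rw [hcon.2, abs_zero, zero_mul] at hlt
        have hre : w.re < a := by nlinarith
        refine hT0 ⟨1 - w.re / a, w.re / a, ?_, div_nonneg hcon.1 ha0.le, by ring, ?_⟩
        · rw [sub_nonneg, div_le_one ha0]; exact hre.le
        · conv_rhs => rw [← re_add_im w, hcon.2]
          simp [ha0.ne']
      have hang : ContinuousAt ang z := by
        refine continuousAt_const.add ?_
        exact ContinuousAt.comp (f := fun y => -(rot y)) (continuousAt_arg hslit) (by fun_prop)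
      have hk : ∀ k ∈ Finset.Icc 1 (m - 2), ∀ᶠ y in 𝓝 z, (t k ≤ ang y ↔ t k ≤ ang z) := by
        intro k hk
        rw [Finset.mem_Icc] at hk
        have hne : ang z ≠ t k := by
          intro heq
          refine hnot (k + 2) (by omega) ?_
          simp only [S]
          rw [if_neg (by omega), if_neg (by omega), if_neg (by omega),
            show k + 2 - 2 = k by omega]
          refine ⟨1 - ‖z‖, ‖z‖, by linarith, norm_nonneg _, by ring, ?_⟩
          rw [smul_zero, zero_add, real_smul, ← heq]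
          have harg := norm_mul_exp_arg_mul_I (-(rot z))
          simp only [ang]
          rw [norm_neg, show ‖rot z‖ = ‖z‖ from norm_rot z M] at harg
          have e1 : exp ((M - π : ℝ) * I + arg (-(rot z)) * I) =
              exp ((M - π : ℝ) * I) * exp (arg (-(rot z)) * I) := exp_add _ _
          push_cast at e1 ⊢
          rw [add_mul, e1, mul_left_comm, harg, sub_mul, exp_sub, exp_pi_mul_I]
          simp only [rot]
          rw [div_neg, div_one, neg_mul_neg]
          exact exp_rot_cancel z M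
        rcases lt_or_gt_of_ne hne with h1 | h1
        · filter_upwards [hang.eventually_lt continuousAt_const h1] with y hy
          simp [not_le.2 h1, not_le.2 hy]
        · filter_upwards [continuousAt_const.eventually_lt hang h1] with y hy
          simp [h1.le, hy.le]
      filter_upwards [nhdsWithin_le_nhds (ho.mem_nhds hlt),
        nhdsWithin_le_nhds ((Finset.eventually_all _).2 hk)] with y hy hyk
      have hy : s * ((rot y).re - a) < |(rot y).im| * (c - a) := hy
      have h1 : ¬ W (rot y) := not_lt.2 hy.le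
      have h2 : ¬ W w := hW
      simp only [if_neg h1, if_neg h2, cn]
      rw [Finset.filter_congr hyk]
  · have hn : ∀ σ : ℝ, σ ^ 2 = 1 → ‖e * ((c : ℂ) + σ * s * I)‖ ≤ 1 := by
      intro σ hσ
      rw [norm_mul, norm_exp_ofReal_mul_I, one_mul]
      refine (pow_le_one_iff_of_nonneg (norm_nonneg _) two_ne_zero).1 ?_
      rw [← normSq_eq_norm_sq, normSq_apply]
      simp
      nlinarith
    have h1 := hn 1 (by norm_num)
    have h2 := hn (-1) (by norm_num)
    simp only [ofReal_one, ofReal_neg, one_mul, neg_mul, ← sub_eq_add_neg] at h1 h2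
    have ha' : ‖e * (a : ℂ)‖ ≤ 1 := by
      rw [norm_mul, norm_exp_ofReal_mul_I, one_mul, norm_real, Real.norm_of_nonneg ha0.le]
      linarith
    simp only [S]
    split_ifs
    · exact ⟨by simp, ha'⟩
    · exact ⟨ha', h1⟩
    · exact ⟨ha', h2⟩
    · exact ⟨by simp, (norm_exp_ofReal_mul_I _).le⟩
  · intro j hj θ hθ
    have hr : rot (exp (θ * I)) = exp (((θ - M : ℝ) : ℂ) * I) := exp_sub_mul θ M
    have hWiff : W (rot (exp (θ * I))) ↔
        |Real.sin (θ - M)| * (c - a) < s * (Real.cos (θ - M) - a) := by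
      simp only [W, hr, exp_ofReal_mul_I_re, exp_ofReal_mul_I_im]
    by_cases hjl : j = m - 1
    · subst hjl
      rw [show m - 1 + 1 = m by omega] at hθ
      rw [if_pos]
      rw [hWiff]
      have hab : |θ - M| < ψ := by rw [abs_lt]; constructor <;> linarith [hθ.1, hθ.2]
      have hcα : c < Real.cos (θ - M) := by
        rw [← Real.cos_abs (θ - M)]
        exact Real.strictAntiOn_cos ⟨abs_nonneg _, by linarith⟩ ⟨hψ0.le, hψπ.le⟩ hab
      have hsα : |Real.sin (θ - M)| ≤ s := by
        refine (pow_le_pow_iff_left₀ (abs_nonneg _) hs0.le two_ne_zero).1 ?_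
        rw [sq_abs]; nlinarith [Real.cos_sq_add_sin_sq (θ - M)]
      nlinarith
    · have hj2 : j + 1 ≤ m - 1 := by omega
      have hhi : θ < M - ψ := by
        have : t (j + 1) ≤ t (m - 1) := by
          rcases hj2.eq_or_lt with h | h
          · rw [h]
          · exact (hincr _ _ h (by omega)).le
        linarith [hθ.2]
      have hlo : M - 2 * π + ψ < θ := by
        have : t 0 ≤ t j := by
          rcases (Nat.zero_le j).eq_or_lt with h | h
          · rw [← h]
          · exact (hincr _ _ h (by omega)).le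
        linarith [hθ.1]
      have hcα : Real.cos (θ - M) < c := by
        rw [← Real.cos_neg (θ - M), neg_sub]
        rcases le_or_gt (M - θ) π with hle | hgt
        · exact Real.strictAntiOn_cos ⟨hψ0.le, hψπ.le⟩ ⟨by linarith, hle⟩ (by linarith)
        · rw [← Real.cos_two_pi_sub (M - θ)]
          exact Real.strictAntiOn_cos ⟨hψ0.le, hψπ.le⟩ ⟨by linarith, by linarith⟩ (by linarith)
      have hnW : ¬ W (rot (exp (θ * I))) := by
        rw [hWiff, not_lt]
        rcases le_or_gt (Real.cos (θ - M)) a with h1 | h1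
        · nlinarith [abs_nonneg (Real.sin (θ - M))]
        · have hsα : s ≤ |Real.sin (θ - M)| := by
            refine (pow_le_pow_iff_left₀ hs0.le (abs_nonneg _) two_ne_zero).1 ?_
            rw [sq_abs]; nlinarith [Real.cos_sq_add_sin_sq (θ - M)]
          nlinarith
      rw [if_neg hnW]
      have hangθ : ang (exp (θ * I)) = θ := by
        have : -(rot (exp (θ * I))) = exp (((θ - M + π : ℝ) : ℂ) * I) := by
          rw [hr]; push_cast
          rw [add_mul ((θ : ℂ) - M), exp_add, exp_pi_mul_I, mul_neg_one]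
        simp only [ang, this]
        rw [exp_mul_I, arg_cos_add_sin_mul_I ⟨by linarith, by linarith⟩]
        ring
      simp only [cn, hangθ]
      rw [show (Finset.Icc 1 (m - 2)).filter (fun k => t k ≤ θ) = Finset.Icc 1 j from ?_,
        Nat.card_Icc, Nat.add_sub_cancel]
      ext k
      simp only [Finset.mem_filter, Finset.mem_Icc]
      refine ⟨fun ⟨⟨h1, h2⟩, h3⟩ => ⟨h1, ?_⟩, fun ⟨h1, h2⟩ => ⟨⟨h1, by omega⟩, ?_⟩⟩
      · by_contra hgt
        have : t (j + 1) ≤ t k := by
          rcases (show j + 1 ≤ k by omega).eq_or_lt with h | h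
          · rw [h]
          · exact (hincr _ _ h (by omega)).le
        linarith [hθ.2]
      · have : t k ≤ t j := by
          rcases h2.eq_or_lt with h | h
          · rw [h]
          · exact (hincr _ _ h (by omega)).le
        linarith [hθ.1]

end Vale.Agent.P128.Network
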