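import Vale.Agent.P128.Spec2
import Vale.Agent.P128.Basic
import Vale.Agent.P128.Network.Nets

/-!
# P128, piece L: the competitor built on a network (annulus interpolation to constants)
-/

open MeasureTheory Set Metric Filter Complex
open scoped ENNReal NNReal Topology Real

noncomputable section

namespace Vale.Agent.P128.Network

variable {K : Set ℂ} {u : ℂ → ℝ} {x : ℂ} {r : ℝ} {t : ℕ → ℝ} {m : ℕ}

theorem exists_arc_index (hm : 0 < m) {θ : ℝ} (h0 : t 0 ≤ θ) (h1 : θ < t m) :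
    ∃ j < m, t j ≤ θ ∧ θ < t (j + 1) := by
  induction m with
  | zero => omega
  | succ k ih =>
    rcases le_or_gt (t k) θ with h | h
    · exact ⟨k, by omega, h, h1⟩
    · rcases Nat.eq_zero_or_pos k with rfl | hk
      · exact absurd h (not_lt.2 h0)
      · obtain ⟨j, hj, hj'⟩ := ih hk h
        exact ⟨j, by omega, hj'⟩

theorem exp_mul_I_add_int (θ : ℝ) (k : ℤ) :
    exp (((θ + k * (2 * π) : ℝ) : ℂ) * I) = exp (θ * I) := by
  push_cast
  rw [add_mul, exp_add, mul_assoc, exp_int_mul_two_pi_mul_I, mul_one]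

theorem circleMap_add_int (x : ℂ) (r θ : ℝ) (k : ℤ) :
    circleMap x r (θ + k * (2 * π)) = circleMap x r θ := by
  simp only [circleMap, exp_mul_I_add_int]

/-- Every angle is a partition angle or lies in an arc, up to a multiple of `2π`. -/
theorem exists_arc (hp : IsPartition K x r t m) (θ : ℝ) :
    ∃ j < m, ∃ k : ℤ, θ + k * (2 * π) = t j ∨ θ + k * (2 * π) ∈ Ioo (t j) (t (j + 1)) := by
  obtain ⟨hm, htot, -⟩ := hp
  set θ' := toIcoMod Real.two_pi_pos (t 0) θ with hθ'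
  have hmem := toIcoMod_mem_Ico Real.two_pi_pos (t 0) θ
  obtain ⟨j, hj, hj1, hj2⟩ := exists_arc_index hm hmem.1 (show θ' < t m by rw [htot]; exact hmem.2)
  refine ⟨j, hj, -toIcoDiv Real.two_pi_pos (t 0) θ, ?_⟩
  have : θ + ((-toIcoDiv Real.two_pi_pos (t 0) θ : ℤ) : ℝ) * (2 * π) = θ' := by
    rw [hθ', toIcoMod, zsmul_eq_mul]; push_cast; ring
  rw [this]
  rcases hj1.eq_or_lt with h | h
  · exact Or.inl h.symm
  · exact Or.inr ⟨h, hj2⟩

theorem sq_integral_le {f : ℝ → ℝ} {a b : ℝ} (hab : a ≤ b)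
    (hf : IntervalIntegrable f volume a b)
    (hf2 : IntervalIntegrable (fun s => f s ^ 2) volume a b) :
    (∫ s in a..b, f s) ^ 2 ≤ (b - a) * ∫ s in a..b, f s ^ 2 := by
  rcases hab.eq_or_lt with rfl | hlt
  · simp
  set c := (∫ s in a..b, f s) / (b - a) with hc
  have h0 : 0 ≤ ∫ s in a..b, (f s - c) ^ 2 :=
    intervalIntegral.integral_nonneg hab fun s _ => sq_nonneg _
  have hb : b - a ≠ 0 := by linarith
  have h1 : ∫ s in a..b, (f s - c) ^ 2 =
      (∫ s in a..b, f s ^ 2) - 2 * c * (∫ s in a..b, f s) + c ^ 2 * (b - a) := by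
    have : (fun s => (f s - c) ^ 2) = fun s => f s ^ 2 - 2 * c * f s + c ^ 2 := by
      funext s; ring
    rw [this, intervalIntegral.integral_add (hf2.sub (hf.const_mul _)) intervalIntegrable_const,
      intervalIntegral.integral_sub hf2 (hf.const_mul _), intervalIntegral.integral_const_mul,
      intervalIntegral.integral_const, smul_eq_mul]
    ring
  rw [h1] at h0
  have hI : c * (b - a) = ∫ s in a..b, f s := by rw [hc]; field_simp
  rw [← hI] at h0 ⊢
  nlinarith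

theorem dT_periodic (u : ℂ → ℝ) (x : ℂ) (r : ℝ) :
    Function.Periodic (fun θ => dT u x r θ ^ 2) (2 * π) := by
  intro θ
  have hc : circleMap x r (θ + 2 * π) = circleMap x r θ := periodic_circleMap x r θ
  have he : exp (((θ + 2 * π : ℝ) : ℂ) * I) = exp (θ * I) := by
    have := exp_mul_I_add_int θ 1
    simpa using this
  simp only [dT, hc, he]

theorem integral_dT_sq (u : ℂ → ℝ) (x : ℂ) (r a : ℝ) :
    r * ∫ θ in a..a + 2 * π, dT u x r θ ^ 2 = tauC u x r := by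
  rw [(dT_periodic u x r).intervalIntegral_add_eq a 0, zero_add, tauC, tauArc,
    intervalIntegral.integral_const_mul]

/-- Position on the closed unit disc. -/
def pos (x : ℂ) (ρ₀ : ℝ) (z : ℂ) : ℂ := (((max ‖z - x‖ ρ₀)⁻¹ : ℝ) : ℂ) * (z - x)

/-- Interpolation weight. -/
def wgt (x : ℂ) (ρ₀ r : ℝ) (z : ℂ) : ℝ := max 0 (min 1 ((‖z - x‖ - ρ₀) / (r - ρ₀)))

/-- Radial retraction to the complement of the disc. -/
def proj (x : ℂ) (r : ℝ) (z : ℂ) : ℂ :=
  x + ((max ‖z - x‖ r / ‖z - x‖ : ℝ) : ℂ) * (z - x)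

/-- Value of `u` in the middle of the arc `j`. -/
def mid (u : ℂ → ℝ) (x : ℂ) (r : ℝ) (t : ℕ → ℝ) (j : ℕ) : ℝ :=
  u (circleMap x r ((t j + t (j + 1)) / 2))

/-- The competitor. -/
def comp (u : ℂ → ℝ) (x : ℂ) (r ρ₀ : ℝ) (t : ℕ → ℝ) (J : ℂ → ℕ) (z : ℂ) : ℝ :=
  mid u x r t (J (pos x ρ₀ z)) +
    wgt x ρ₀ r z * (u (proj x r z) - mid u x r t (J (pos x ρ₀ z)))

/-- The scaled network. -/
def inner (x : ℂ) (ρ₀ : ℝ) (n : ℕ) (S : ℕ → ℂ × ℂ) : Set ℂ :=
  ⋃ k ∈ Finset.range n, segment ℝ (x + (ρ₀ : ℂ) * (S k).1) (x + (ρ₀ : ℂ) * (S k).2)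

/-- Radial segments in the annulus. -/
def spokes (x : ℂ) (r ρ₀ : ℝ) (t : ℕ → ℝ) (m : ℕ) : Set ℂ :=
  ⋃ i ∈ Finset.range m, segment ℝ (circleMap x ρ₀ (t i)) (circleMap x r (t i))

theorem norm_pos_le {ρ₀ : ℝ} (h : 0 < ρ₀) (z : ℂ) : ‖pos x ρ₀ z‖ ≤ 1 := by
  have hmax : 0 < max ‖z - x‖ ρ₀ := lt_max_of_lt_right h
  rw [pos, norm_mul, norm_real, Real.norm_of_nonneg (inv_nonneg.2 hmax.le), inv_mul_le_one₀ hmax]
  exact le_max_left _ _

theorem continuous_pos {ρ₀ : ℝ} (h : 0 < ρ₀) : Continuous (pos x ρ₀) := by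
  have : Continuous fun z : ℂ => (max ‖z - x‖ ρ₀)⁻¹ :=
    Continuous.inv₀ (by fun_prop) fun z => (lt_max_of_lt_right h).ne'
  unfold pos
  fun_prop

theorem circleMap_norm_sub (x : ℂ) {ρ : ℝ} (hρ : 0 ≤ ρ) (θ : ℝ) : ‖circleMap x ρ θ - x‖ = ρ := by
  simp [circleMap, abs_of_nonneg hρ]

theorem pos_circleMap {ρ₀ ρ θ : ℝ} (h : 0 < ρ₀) (hρ : ρ₀ ≤ ρ) :
    pos x ρ₀ (circleMap x ρ θ) = exp (θ * I) := by
  rw [pos, circleMap_norm_sub x (h.le.trans hρ), max_eq_left hρ, circleMap, add_sub_cancel_left]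
  have : (ρ : ℂ) ≠ 0 := by exact_mod_cast (h.trans_le hρ).ne'
  push_cast
  field_simp

theorem proj_circleMap {ρ θ : ℝ} (hρ : 0 < ρ) (hρr : ρ ≤ r) :
    proj x r (circleMap x ρ θ) = circleMap x r θ := by
  rw [proj, circleMap_norm_sub x hρ.le, max_eq_right hρr, circleMap, add_sub_cancel_left, circleMap]
  have : (ρ : ℂ) ≠ 0 := by exact_mod_cast hρ.ne'
  push_cast
  field_simp

theorem exists_circleMap (x z : ℂ) : ∃ θ : ℝ, z = circleMap x ‖z - x‖ θ :=
  ⟨arg (z - x), by simp [circleMap, norm_mul_exp_arg_mul_I]⟩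

theorem isClosed_segs (x : ℂ) (r ρ₀ : ℝ) (n : ℕ) (S : ℕ → ℂ × ℂ) (t : ℕ → ℝ) (m : ℕ) :
    IsClosed (inner x ρ₀ n S ∪ spokes x r ρ₀ t m) := by
  have hseg : ∀ a b : ℂ, IsClosed (segment ℝ a b) := fun a b => by
    rw [segment_eq_image_lineMap]
    exact (isCompact_Icc.image (by fun_prop)).isClosed
  exact (isClosed_biUnion_finset fun k _ => hseg _ _).union
    (isClosed_biUnion_finset fun k _ => hseg _ _)

variable {ρ₀ ℓ : ℝ} {n : ℕ} {S : ℕ → ℂ × ℂ} {J : ℂ → ℕ}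

theorem segs_subset (hρ0 : 0 < ρ₀) (hρr : ρ₀ < r)
    (hS : ∀ k < n, ‖(S k).1‖ ≤ 1 ∧ ‖(S k).2‖ ≤ 1) :
    inner x ρ₀ n S ∪ spokes x r ρ₀ t m ⊆ closedBall x r := by
  refine union_subset (iUnion₂_subset fun k hk => ?_) (iUnion₂_subset fun i _ => ?_)
  · obtain ⟨h1, h2⟩ := hS k (Finset.mem_range.1 hk)
    refine (convex_closedBall x r).segment_subset ?_ ?_ <;>
    · rw [mem_closedBall, dist_eq_norm, add_sub_cancel_left, norm_mul, norm_real,
        Real.norm_of_nonneg hρ0.le]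
      nlinarith
  · refine (convex_closedBall x r).segment_subset ?_ ?_ <;>
    · rw [mem_closedBall, dist_eq_norm, circleMap_norm_sub x (by linarith)]
      all_goals linarith

/-- Off the spokes a point of the closed annulus sits over an open arc. -/
theorem arc_of_notMem (hp : IsPartition K x r t m) (_hρ0 : 0 < ρ₀) {z : ℂ}
    (h1 : ρ₀ ≤ ‖z - x‖) (h2 : ‖z - x‖ ≤ r) (hz : z ∉ spokes x r ρ₀ t m) :
    ∃ j < m, ∃ θ ∈ Ioo (t j) (t (j + 1)), z = circleMap x ‖z - x‖ θ := by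
  obtain ⟨θ, hθ⟩ := exists_circleMap x z
  obtain ⟨j, hj, k, hk⟩ := exists_arc hp θ
  have hz' : z = circleMap x ‖z - x‖ (θ + k * (2 * π)) := by rw [circleMap_add_int]; exact hθ
  rcases hk with hk | hk
  · exfalso
    refine hz (mem_iUnion₂.2 ⟨j, Finset.mem_range.2 hj, ?_⟩)
    rw [hk] at hz'
    rcases (h1.trans h2).eq_or_lt with heq | hlt
    · rw [hz', show ‖z - x‖ = ρ₀ by linarith]
      exact left_mem_segment ℝ _ _
    refine ⟨(r - ‖z - x‖) / (r - ρ₀), (‖z - x‖ - ρ₀) / (r - ρ₀),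
      div_nonneg (by linarith) (by linarith), div_nonneg (by linarith) (by linarith), ?_, ?_⟩
    · have : r - ρ₀ ≠ 0 := by linarith
      field_simp; ring
    · conv_rhs => rw [hz']
      simp only [circleMap, real_smul]
      have : (r : ℂ) - ρ₀ ≠ 0 := by exact_mod_cast (show r - ρ₀ ≠ 0 by linarith)
      push_cast
      field_simp
      ring
  · exact ⟨j, hj, _, hk, hz'⟩

theorem index_eventually (hnet : IsNet t m ℓ n S J) (hρ0 : 0 < ρ₀) (hp : IsPartition K x r t m)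
    {z : ℂ} (hz : z ∉ inner x ρ₀ n S ∪ spokes x r ρ₀ t m) (hzr : ‖z - x‖ ≤ r) :
    ∀ᶠ y in 𝓝 z, J (pos x ρ₀ y) = J (pos x ρ₀ z) := by
  simp only [mem_union, not_or] at hz
  rcases le_or_gt ‖z - x‖ ρ₀ with hle | hgt
  · have hq : pos x ρ₀ z = (((ρ₀⁻¹ : ℝ)) : ℂ) * (z - x) := by rw [pos, max_eq_right hle]
    have hnot : ∀ k < n, pos x ρ₀ z ∉ segment ℝ (S k).1 (S k).2 := by
      intro k hk hmem
      refine hz.1 (mem_iUnion₂.2 ⟨k, Finset.mem_range.2 hk, ?_⟩)
      obtain ⟨a, b, ha, hb, hab, heq⟩ := hmem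
      refine ⟨a, b, ha, hb, hab, ?_⟩
      rw [hq] at heq
      simp only [real_smul] at heq ⊢
      have hab' : (a : ℂ) + b = 1 := by exact_mod_cast hab
      have hzx : (ρ₀ : ℂ) * ((((ρ₀⁻¹ : ℝ)) : ℂ) * (z - x)) = z - x := by
        rw [← mul_assoc, ← ofReal_mul, mul_inv_cancel₀ hρ0.ne', ofReal_one, one_mul]
      linear_combination x * hab' + (ρ₀ : ℂ) * heq + hzx
    have hev := hnet.loc _ (norm_pos_le hρ0 z) hnot
    have htend : Tendsto (pos x ρ₀) (𝓝 z) (𝓝[closedBall 0 1] (pos x ρ₀ z)) :=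
      tendsto_nhdsWithin_iff.2 ⟨(continuous_pos hρ0).continuousAt,
        Eventually.of_forall fun y => by simpa using norm_pos_le hρ0 y⟩
    exact htend.eventually hev
  · obtain ⟨j, hj, θ, hθ, hzθ⟩ := arc_of_notMem hp hρ0 hgt.le hzr hz.2
    have hqz : pos x ρ₀ z = exp (θ * I) := by rw [hzθ]; exact pos_circleMap hρ0 hgt.le
    let α : ℂ → ℝ := fun y => θ + arg ((y - x) * exp (-(θ * I)))
    have hα0 : (z - x) * exp (-(θ * I)) = (‖z - x‖ : ℝ) := by
      conv_lhs => rw [hzθ, circleMap, add_sub_cancel_left, mul_assoc, ← exp_add, add_neg_cancel,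
        exp_zero, mul_one]
    have hslit : (z - x) * exp (-(θ * I)) ∈ slitPlane := by
      rw [hα0, ofReal_mem_slitPlane]; linarith
    have hαc : ContinuousAt α z := continuousAt_const.add
      (ContinuousAt.comp (f := fun y => (y - x) * exp (-(θ * I))) (continuousAt_arg hslit)
        (by fun_prop))
    have hαz : α z = θ := by
      simp only [α, hα0, arg_ofReal_of_nonneg (norm_nonneg _), add_zero]
    have hev : ∀ᶠ y in 𝓝 z, α y ∈ Ioo (t j) (t (j + 1)) ∧ ρ₀ ≤ ‖y - x‖ := by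
      refine Eventually.and (hαc.preimage_mem_nhds (isOpen_Ioo.mem_nhds (hαz.symm ▸ hθ))) ?_
      exact ((continuous_id.sub continuous_const).norm.tendsto z).eventually (eventually_ge_nhds hgt)
    filter_upwards [hev] with y ⟨hy, hyρ⟩
    have hy' : y = circleMap x ‖y - x‖ (α y) := by
      have h := norm_mul_exp_arg_mul_I ((y - x) * exp (-(θ * I)))
      rw [norm_rot] at h
      simp only [circleMap, α]
      push_cast
      rw [add_mul, exp_add, mul_left_comm, h, exp_rot_cancel, add_sub_cancel]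
    have hqy : pos x ρ₀ y = exp (α y * I) := by
      conv_lhs => rw [hy']
      exact pos_circleMap hρ0 hyρ
    rw [hqy, hqz, hnet.arc j hj _ hy, hnet.arc j hj θ hθ]

theorem wgt_eq_zero (hρr : ρ₀ < r) {z : ℂ} (h : ‖z - x‖ ≤ ρ₀) : wgt x ρ₀ r z = 0 := by
  rw [wgt, max_eq_left ((min_le_right _ _).trans (div_nonpos_of_nonpos_of_nonneg
    (by linarith) (by linarith)))]

theorem comp_eq_of_le (hρ0 : 0 < ρ₀) (hρr : ρ₀ < r) {z : ℂ} (h : r ≤ ‖z - x‖) :
    comp u x r ρ₀ t J z = u z := by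
  have h1 : wgt x ρ₀ r z = 1 := by
    have : 1 ≤ (‖z - x‖ - ρ₀) / (r - ρ₀) := by rw [le_div_iff₀ (by linarith)]; linarith
    rw [wgt, min_eq_left this, max_eq_right zero_le_one]
  have h2 : proj x r z = z := by
    rw [proj, max_eq_left h, div_self (by linarith), ofReal_one, one_mul, add_sub_cancel]
  rw [comp, h1, h2]; ring

theorem fderiv_comp_inner (hnet : IsNet t m ℓ n S J) (hρ0 : 0 < ρ₀) (hρr : ρ₀ < r)
    (hp : IsPartition K x r t m) {z : ℂ} (hz : z ∉ inner x ρ₀ n S ∪ spokes x r ρ₀ t m)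
    (h : ‖z - x‖ < ρ₀) :
    comp u x r ρ₀ t J =ᶠ[𝓝 z] fun _ => comp u x r ρ₀ t J z := by
  filter_upwards [index_eventually hnet hρ0 hp hz (by linarith),
    ((continuous_id.sub continuous_const).norm.tendsto z).eventually (eventually_le_nhds h)]
    with y hy hyρ
  simp only [comp, hy, wgt_eq_zero hρr h.le, wgt_eq_zero hρr (show ‖y - x‖ ≤ ρ₀ from hyρ), zero_mul]

/-- A component of `Kᶜ` attached to a point off the competitor set. -/
def region (K : Set ℂ) (x : ℂ) (r ρ₀ : ℝ) (t : ℕ → ℝ) (J : ℂ → ℕ) (z : ℂ) : Set ℂ :=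
  if ‖z - x‖ ≤ r then
    connectedComponentIn Kᶜ
      (circleMap x r ((t (J (pos x ρ₀ z)) + t (J (pos x ρ₀ z) + 1)) / 2))
  else connectedComponentIn Kᶜ z

theorem component_eventually (hK : IsClosed K) {z : ℂ} (hz : z ∉ K) :
    ∀ᶠ y in 𝓝 z, connectedComponentIn Kᶜ y = connectedComponentIn Kᶜ z := by
  obtain ⟨d, hd, hsub⟩ := Metric.isOpen_iff.1 hK.isOpen_compl z hz
  filter_upwards [ball_mem_nhds z hd] with y hy
  exact (connectedComponentIn_eq ((convex_ball z d).isPreconnected.subset_connectedComponentIn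
    (mem_ball_self hd) hsub hy)).symm

theorem region_eventually (hK : IsClosed K) (hnet : IsNet t m ℓ n S J) (hρ0 : 0 < ρ₀)
    (hρr : ρ₀ < r) (hp : IsPartition K x r t m) {z : ℂ}
    (hz : z ∉ (K \ ball x r) ∪ (inner x ρ₀ n S ∪ spokes x r ρ₀ t m)) :
    ∀ᶠ y in 𝓝 z, region K x r ρ₀ t J y = region K x r ρ₀ t J z := by
  rw [mem_union, not_or] at hz
  obtain ⟨hzK, hzT⟩ := hz
  have hnorm := (continuous_id.sub (continuous_const (y := x))).norm.tendsto z
  rcases lt_trichotomy ‖z - x‖ r with hlt | heq | hgt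
  · filter_upwards [index_eventually hnet hρ0 hp hzT hlt.le,
      hnorm.eventually (eventually_le_nhds hlt)] with y hy hyr
    have hyr : ‖y - x‖ ≤ r := hyr
    simp only [region, if_pos hlt.le, if_pos hyr, hy]
  · have hzK' : z ∉ K := fun hk => hzK ⟨hk, by rw [mem_ball, dist_eq_norm, heq]; exact lt_irrefl r⟩
    obtain ⟨j, hj, θ, hθ, hzθ⟩ :=
      arc_of_notMem hp hρ0 (by linarith) heq.le (fun h' => hzT (Or.inr h'))
    rw [heq] at hzθ
    have hJ : J (pos x ρ₀ z) = j := by rw [hzθ, pos_circleMap hρ0 hρr.le, hnet.arc j hj θ hθ]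
    have hsame : connectedComponentIn Kᶜ z =
        connectedComponentIn Kᶜ (circleMap x r ((t j + t (j + 1)) / 2)) := by
      refine connectedComponentIn_eq ?_
      have hmid : (t j + t (j + 1)) / 2 ∈ Ioo (t j) (t (j + 1)) := by
        have := (hp.2.2 j hj).1.1; constructor <;> linarith
      refine (isPreconnected_Ioo.image _
        (continuous_circleMap x r).continuousOn).subset_connectedComponentIn
        ⟨θ, hθ, hzθ.symm⟩ ?_ (mem_image_of_mem _ hmid)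
      rintro _ ⟨θ', hθ', rfl⟩
      exact (hp.2.2 j hj).1.2.2 θ' hθ'
    filter_upwards [index_eventually hnet hρ0 hp hzT heq.le, component_eventually hK hzK']
      with y hy hyc
    simp only [region, if_pos heq.le, hJ]
    split_ifs
    · rw [hy, hJ]
    · rw [hyc, hsame]
  · have hzK' : z ∉ K := fun hk => hzK ⟨hk, by
      rw [mem_ball, dist_eq_norm]; exact not_lt.2 hgt.le⟩
    filter_upwards [component_eventually hK hzK', hnorm.eventually (eventually_gt_nhds hgt)]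
      with y hyc hyr
    have hyr : r < ‖y - x‖ := hyr
    simp only [region, if_neg (not_le.2 hgt), if_neg (not_le.2 hyr), hyc]

theorem keepsSeparation (hK : IsClosed K) (hnet : IsNet t m ℓ n S J) (hρ0 : 0 < ρ₀)
    (hρr : ρ₀ < r) (hp : IsPartition K x r t m) {R : ℝ} (hR : ‖x‖ + r < R) :
    KeepsSeparation K ((K \ ball x r) ∪ (inner x ρ₀ n S ∪ spokes x r ρ₀ t m)) 0 R := by
  set L := (K \ ball x r) ∪ (inner x ρ₀ n S ∪ spokes x r ρ₀ t m)
  intro a b ha hb hsep heq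
  simp only [mem_union, not_or, mem_ball, dist_zero_right, not_lt] at ha hb
  have hfar : ∀ w : ℂ, R ≤ ‖w‖ → r < ‖w - x‖ := fun w hw => by
    linarith [norm_sub_norm_le w x]
  have hreg : ∀ w : ℂ, R ≤ ‖w‖ → region K x r ρ₀ t J w = connectedComponentIn Kᶜ w := fun w hw => by
    simp only [region, if_neg (not_le.2 (hfar w hw))]
  have hin : ∀ w : ℂ, R ≤ ‖w‖ → w ∉ K → w ∈ Lᶜ := by
    rintro w hw hwK (h' | h' | h')
    · exact hwK h'.1
    · have := segs_subset (x := x) (t := t) (m := m) hρ0 hρr hnet.inDisc (Or.inl h')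
      rw [mem_closedBall, dist_eq_norm] at this
      linarith [hfar w hw]
    · have := segs_subset (x := x) (t := t) (m := m) hρ0 hρr hnet.inDisc (Or.inr h')
      rw [mem_closedBall, dist_eq_norm] at this
      linarith [hfar w hw]
  refine hsep ?_
  rw [← hreg a ha.1, ← hreg b hb.1]
  have hmem : b ∈ connectedComponentIn Lᶜ a := heq ▸ mem_connectedComponentIn (hin b hb.1 hb.2)
  refine IsPreconnected.induction₂ isPreconnected_connectedComponentIn
    (fun p q => region K x r ρ₀ t J p = region K x r ρ₀ t J q) (fun w hw => ?_)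
    (fun _ _ _ _ _ _ h1 h2 => h1.trans h2) (fun _ _ _ _ h1 => h1.symm)
    (mem_connectedComponentIn (hin a ha.1 ha.2)) hmem
  exact (eventually_nhdsWithin_of_eventually_nhds (region_eventually hK hnet hρ0 hρr hp
    (connectedComponentIn_subset _ _ hw))).mono fun y hy => hy.symm

theorem lipschitzWith_norm_sub (x : ℂ) : LipschitzWith 1 fun z : ℂ => ‖z - x‖ := by
  simpa only [← dist_eq_norm] using LipschitzWith.dist_left x

theorem locallyLipschitz_comp (h : IsGM K u) (hnet : IsNet t m ℓ n S J) (hρ0 : 0 < ρ₀)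
    (hρr : ρ₀ < r) (hp : IsPartition K x r t m) :
    LocallyLipschitzOn ((K \ ball x r) ∪ (inner x ρ₀ n S ∪ spokes x r ρ₀ t m))ᶜ
      (comp u x r ρ₀ t J) := by
  intro z hz
  rw [mem_compl_iff, mem_union, not_or] at hz
  obtain ⟨hzK, hzT⟩ := hz
  rcases lt_or_ge r ‖z - x‖ with hout | hin
  · have hzK' : z ∈ Kᶜ := fun hk => hzK ⟨hk, by
      rw [mem_ball, dist_eq_norm]; exact not_lt.2 hout.le⟩
    obtain ⟨c, s, hs, hl⟩ := ((h.contDiffOn 1).contDiffAt
      (h.isOpen_compl.mem_nhds hzK')).exists_lipschitzOnWith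
    have hev : ∀ᶠ y in 𝓝 z, r ≤ ‖y - x‖ :=
      ((continuous_id.sub continuous_const).norm.tendsto z).eventually (eventually_ge_nhds hout)
    refine ⟨c, s ∩ {y | r ≤ ‖y - x‖}, nhdsWithin_le_nhds (inter_mem hs hev), ?_⟩
    intro a ha b hb
    rw [comp_eq_of_le hρ0 hρr ha.2, comp_eq_of_le hρ0 hρr hb.2]
    exact hl ha.1 hb.1
  rcases lt_or_ge ‖z - x‖ ρ₀ with hsmall | hbig
  · refine ⟨0, _, nhdsWithin_le_nhds (fderiv_comp_inner (u := u) hnet hρ0 hρr hp hzT hsmall), ?_⟩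
    intro a ha b hb
    simp only [mem_ofPred_eq] at ha hb
    simp [ha, hb]
  obtain ⟨j, hj, θ, hθ, hzθ⟩ := arc_of_notMem hp hρ0 hbig hin (fun h' => hzT (Or.inr h'))
  have hne : z - x ≠ 0 := by
    rw [← norm_ne_zero_iff]; linarith
  have hπ : proj x r z = circleMap x r θ := by
    rw [hzθ]; exact proj_circleMap (hρ0.trans_le hbig) hin
  have hfree : proj x r z ∈ Kᶜ := hπ ▸ (hp.2.2 j hj).1.2.2 θ hθ
  set c := mid u x r t (J (pos x ρ₀ z))
  let G : ℝ × ℝ × ℂ → ℝ := fun p =>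
    c + p.1 * (u (x + ((p.2.1 / ‖p.2.2 - x‖ : ℝ) : ℂ) * (p.2.2 - x)) - c)
  let P : ℂ → ℝ × ℝ × ℂ := fun y => (wgt x ρ₀ r y, max ‖y - x‖ r, y)
  have hG : ContDiffAt ℝ 1 G (P z) := by
    have hu : ContDiffAt ℝ 1 u (proj x r z) :=
      (h.contDiffOn 1).contDiffAt (h.isOpen_compl.mem_nhds hfree)
    have hn : ContDiffAt ℝ 1 (fun p : ℝ × ℝ × ℂ => ‖p.2.2 - x‖) (P z) :=
      ContDiffAt.norm ℝ (by fun_prop) hne
    have hq : ContDiffAt ℝ 1 (fun p : ℝ × ℝ × ℂ => p.2.1 / ‖p.2.2 - x‖) (P z) :=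
      ContDiffAt.div (by fun_prop) hn (norm_ne_zero_iff.2 hne)
    have hin' : ContDiffAt ℝ 1 (fun p : ℝ × ℝ × ℂ =>
        x + ((p.2.1 / ‖p.2.2 - x‖ : ℝ) : ℂ) * (p.2.2 - x)) (P z) :=
      contDiffAt_const.add ((ofRealCLM.contDiff.contDiffAt.comp (P z) hq).mul (by fun_prop))
    exact contDiffAt_const.add (contDiffAt_fst.mul ((hu.comp (P z) hin').sub contDiffAt_const))
  obtain ⟨CG, sG, hsG, hlG⟩ := hG.exists_lipschitzOnWith
  have hlw : ∃ C, LipschitzWith C (wgt x ρ₀ r) := by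
    refine ⟨_, (LipschitzWith.const_max ((LipschitzWith.const_min
      (f := fun y : ℂ => (‖y - x‖ - ρ₀) / (r - ρ₀))
      (LipschitzWith.of_dist_le_mul (K := Real.toNNReal (r - ρ₀)⁻¹) fun a b => ?_) 1)) 0)⟩
    rw [Real.dist_eq, ← sub_div, sub_sub_sub_cancel_right, abs_div,
      abs_of_pos (by linarith : 0 < r - ρ₀), Real.coe_toNNReal _ (inv_nonneg.2 (by linarith)),
      div_eq_inv_mul]
    refine mul_le_mul_of_nonneg_left ?_ (inv_nonneg.2 (by linarith))
    rw [← Real.dist_eq]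
    simpa using (lipschitzWith_norm_sub x).dist_le_mul a b
  obtain ⟨Cw, hCw⟩ := hlw
  have hlP : LipschitzWith (max Cw (max (max 1 0) 1)) P :=
    hCw.prodMk (((lipschitzWith_norm_sub x).max (LipschitzWith.const r)).prodMk LipschitzWith.id)
  refine ⟨CG * max Cw (max (max 1 0) 1),
    (P ⁻¹' sG) ∩ {y | J (pos x ρ₀ y) = J (pos x ρ₀ z)},
    nhdsWithin_le_nhds (inter_mem (hlP.continuous.continuousAt.preimage_mem_nhds hsG)
      (index_eventually hnet hρ0 hp hzT hin)), ?_⟩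
  have hcomp : LipschitzOnWith (CG * max Cw (max (max 1 0) 1)) (G ∘ P)
      ((P ⁻¹' sG) ∩ {y | J (pos x ρ₀ y) = J (pos x ρ₀ z)}) :=
    hlG.comp hlP.lipschitzOnWith fun y hy => hy.1
  intro a ha b hb
  have e : ∀ y : ℂ, J (pos x ρ₀ y) = J (pos x ρ₀ z) → comp u x r ρ₀ t J y = (G ∘ P) y := by
    intro y hy; simp only [comp, hy]; rfl
  rw [e a ha.2, e b hb.2]
  exact hcomp ha hb

end Vale.Agent.P128.Network
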