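import Vale.Agent.P128.Network.Competitor

/-!
# P128, piece L: energy of the network competitor
-/

open MeasureTheory Set Metric Filter Complex
open scoped ENNReal NNReal Topology Real

noncomputable section

namespace Vale.Agent.P128.Network

variable {K : Set ℂ} {u : ℂ → ℝ} {x : ℂ} {r ρ₀ ℓ : ℝ} {t : ℕ → ℝ} {m n : ℕ} {S : ℕ → ℂ × ℂ}
  {J : ℂ → ℕ}

theorem hasDerivAt_circle (h : IsGM K u) (hp : IsPartition K x r t m) {j : ℕ} (hj : j < m)
    {θ : ℝ} (hθ : θ ∈ Ioo (t j) (t (j + 1))) :
    HasDerivAt (fun s => u (circleMap x r s)) (r * dT u x r θ) θ := by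
  have hfree : circleMap x r θ ∈ Kᶜ := (hp.2.2 j hj).1.2.2 θ hθ
  have hu : HasFDerivAt u (fderiv ℝ u (circleMap x r θ)) (circleMap x r θ) :=
    (((h.contDiffOn 1).contDiffAt
      (h.isOpen_compl.mem_nhds hfree)).differentiableAt one_ne_zero).hasFDerivAt
  have := hu.comp_hasDerivAt θ (hasDerivAt_circleMap x r θ)
  refine this.congr_deriv ?_
  rw [dT, circleMap_zero, mul_assoc, ← real_smul, map_smul, smul_eq_mul]

theorem continuousOn_dT (h : IsGM K u) (hp : IsPartition K x r t m) {j : ℕ} (hj : j < m) :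
    ContinuousOn (fun s => r * dT u x r s) (Ioo (t j) (t (j + 1))) := by
  intro θ hθ
  have hfree : circleMap x r θ ∈ Kᶜ := (hp.2.2 j hj).1.2.2 θ hθ
  have hf : ContinuousAt (fderiv ℝ u) (circleMap x r θ) :=
    ((h.contDiffOn 1).continuousOn_fderiv_of_isOpen h.isOpen_compl le_rfl).continuousAt
      (h.isOpen_compl.mem_nhds hfree)
  refine (ContinuousAt.const_mul ?_ r).continuousWithinAt
  have hc : ContinuousAt (circleMap x r) θ := (continuous_circleMap x r).continuousAt
  have hf' : ContinuousAt (fun s => fderiv ℝ u (circleMap x r s)) θ := hf.comp hc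
  exact hf'.clm_apply (by fun_prop)

theorem partition_bounds (hp : IsPartition K x r t m) {j : ℕ} (hj : j < m) :
    t 0 ≤ t j ∧ t (j + 1) ≤ t 0 + 2 * π := by
  have hstep : ∀ i < m, t i < t (i + 1) := fun i hi => (hp.2.2 i hi).1.1
  have hmono : ∀ i k, i + k ≤ m → t i ≤ t (i + k) := by
    intro i k hk
    induction k with
    | zero => simp
    | succ k ih => exact (ih (by omega)).trans (hstep (i + k) (by omega)).le
  constructor
  · simpa using hmono 0 j (by omega)
  · rw [← hp.2.1]
    have := hmono (j + 1) (m - (j + 1)) (by omega)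
    rwa [show j + 1 + (m - (j + 1)) = m by omega] at this

/-- Oscillation of `u` on a free arc. -/
theorem sq_sub_mid_le (h : IsGM K u) (hg : GoodRadius K u x r) (hp : IsPartition K x r t m)
    {j : ℕ} (hj : j < m) {θ : ℝ} (hθ : θ ∈ Ioo (t j) (t (j + 1))) :
    (u (circleMap x r θ) - mid u x r t j) ^ 2 ≤ 2 * π * r * tauC u x r := by
  have hmem : (t j + t (j + 1)) / 2 ∈ Ioo (t j) (t (j + 1)) := by
    have := (hp.2.2 j hj).1.1; constructor <;> linarith
  obtain ⟨hb0, hb1⟩ := partition_bounds hp hj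
  have key : ∀ a b, a ∈ Ioo (t j) (t (j + 1)) → b ∈ Ioo (t j) (t (j + 1)) → a ≤ b →
      (u (circleMap x r b) - u (circleMap x r a)) ^ 2 ≤ 2 * π * r * tauC u x r := by
    intro a b ha hb hab
    have hsub : uIcc a b ⊆ Ioo (t j) (t (j + 1)) := by
      rw [uIcc_of_le hab]; exact fun s hs => ⟨ha.1.trans_le hs.1, hs.2.trans_lt hb.2⟩
    have hc := (continuousOn_dT h hp hj).mono hsub
    have hint : IntervalIntegrable (fun s => r * dT u x r s) volume a b := hc.intervalIntegrable
    have hftc := intervalIntegral.integral_eq_sub_of_hasDerivAt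
      (fun s hs => hasDerivAt_circle h hp hj (hsub hs)) hint
    rw [← hftc]
    refine (sq_integral_le hab hint (hc.pow 2).intervalIntegrable).trans ?_
    have hle : ∫ s in a..b, (r * dT u x r s) ^ 2 ≤
        ∫ s in t 0..t 0 + 2 * π, (r * dT u x r s) ^ 2 := by
      refine intervalIntegral.integral_mono_interval ?_ hab ?_
        (Eventually.of_forall fun s => sq_nonneg _) ?_
      · linarith [ha.1]
      · linarith [hb.2]
      · simp only [mul_pow]; exact (hg.intT _ _).const_mul _
    have heq : ∫ s in t 0..t 0 + 2 * π, (r * dT u x r s) ^ 2 = r * tauC u x r := by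
      simp only [mul_pow]
      rw [intervalIntegral.integral_const_mul, ← integral_dT_sq u x r (t 0)]
      ring
    have h0 : 0 ≤ ∫ s in a..b, (r * dT u x r s) ^ 2 :=
      intervalIntegral.integral_nonneg hab fun s _ => sq_nonneg _
    rw [mul_assoc]
    exact mul_le_mul (by linarith [ha.1, hb.2]) (heq ▸ hle) h0 (by positivity)
  rcases le_total ((t j + t (j + 1)) / 2) θ with hle | hle
  · exact key _ _ hmem hθ hle
  · rw [sub_sq_comm]; exact key _ _ hθ hmem hle

theorem gradSq_polar (f : ℂ → ℝ) (z : ℂ) (θ : ℝ) :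
    gradSq f z = fderiv ℝ f z (exp (θ * I)) ^ 2 + fderiv ℝ f z (exp (θ * I) * I) ^ 2 := by
  have h1 : exp (θ * I) = Real.cos θ • (1 : ℂ) + Real.sin θ • I := by
    rw [exp_mul_I, real_smul, real_smul, mul_one, ofReal_cos, ofReal_sin]
  have h2 : exp (θ * I) * I = (-Real.sin θ) • (1 : ℂ) + Real.cos θ • I := by
    rw [h1]; simp only [real_smul]; push_cast; linear_combination (Complex.sin θ) * I_mul_I
  rw [h1, map_add, map_smul, map_smul, ← h1, h2, map_add, map_smul, map_smul, gradSq]
  simp only [smul_eq_mul]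
  linear_combination (-(fderiv ℝ f z 1) ^ 2 - (fderiv ℝ f z I) ^ 2) * Real.cos_sq_add_sin_sq θ

/-- The pointwise majorant of the competitor's energy in the annulus. -/
def major (u : ℂ → ℝ) (x : ℂ) (r ρ₀ θ : ℝ) : ℝ :=
  2 * π * r * tauC u x r / (r - ρ₀) ^ 2 + r ^ 2 / ρ₀ ^ 2 * dT u x r θ ^ 2

theorem tauC_nonneg (hr : 0 ≤ r) : 0 ≤ tauC u x r :=
  intervalIntegral.integral_nonneg (by positivity) fun _ _ => mul_nonneg hr (sq_nonneg _)

theorem major_nonneg (hr : 0 ≤ r) (θ : ℝ) : 0 ≤ major u x r ρ₀ θ := by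
  have := tauC_nonneg (u := u) (x := x) hr
  unfold major
  positivity

theorem gradSq_comp_le (h : IsGM K u) (hg : GoodRadius K u x r) (hp : IsPartition K x r t m)
    (hnet : IsNet t m ℓ n S J) (hρ0 : 0 < ρ₀) (hρr : ρ₀ < r) {j : ℕ} (hj : j < m) {θ ρ : ℝ}
    (hθ : θ ∈ Ioo (t j) (t (j + 1))) (hρ : ρ ∈ Ioo ρ₀ r) :
    gradSq (comp u x r ρ₀ t J) (circleMap x ρ θ) ≤ major u x r ρ₀ θ := by
  by_cases hd : DifferentiableAt ℝ (comp u x r ρ₀ t J) (circleMap x ρ θ)
  swap
  · rw [gradSq, fderiv_zero_of_not_differentiableAt hd]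
    simpa using major_nonneg hg.pos.le θ
  set g : ℝ → ℝ := fun s => u (circleMap x r s)
  set c := mid u x r t j
  set l : ℝ → ℝ := fun a => (a - ρ₀) / (r - ρ₀)
  have hr0 : 0 < r - ρ₀ := by linarith
  have hval : ∀ a ∈ Ioo ρ₀ r, ∀ s ∈ Ioo (t j) (t (j + 1)),
      comp u x r ρ₀ t J (circleMap x a s) = c + l a * (g s - c) := by
    intro a ha s hs
    have hl : wgt x ρ₀ r (circleMap x a s) = l a := by
      rw [wgt, circleMap_norm_sub x (by linarith [ha.1])]
      rw [min_eq_right ((div_le_one hr0).2 (by linarith [ha.2])),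
        max_eq_right (div_nonneg (by linarith [ha.1]) hr0.le)]
    rw [comp, pos_circleMap hρ0 ha.1.le, hnet.arc j hj s hs,
      proj_circleMap (hρ0.trans ha.1) ha.2.le, hl]
  set D := fderiv ℝ (comp u x r ρ₀ t J) (circleMap x ρ θ) with hD
  have hrad : D (exp (θ * I)) = (g θ - c) / (r - ρ₀) := by
    have h1 : HasDerivAt (fun a : ℝ => circleMap x a θ) (exp (θ * I)) ρ := by
      simpa [circleMap] using
        ((hasDerivAt_id ρ).ofReal_comp.mul_const (exp (θ * I))).const_add x
    have h2 := hd.hasFDerivAt.comp_hasDerivAt ρ h1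
    have h3 : HasDerivAt (fun a => c + l a * (g θ - c)) ((g θ - c) / (r - ρ₀)) ρ := by
      have := ((((hasDerivAt_id ρ).sub_const ρ₀).div_const (r - ρ₀)).mul_const (g θ - c)).const_add c
      exact this.congr_deriv (by ring)
    refine h2.unique (h3.congr_of_eventuallyEq ?_)
    filter_upwards [Ioo_mem_nhds hρ.1 hρ.2] with a ha
    exact hval a ha θ hθ
  have htan : ρ * D (exp (θ * I) * I) = l ρ * (r * dT u x r θ) := by
    have h2 := hd.hasFDerivAt.comp_hasDerivAt θ (hasDerivAt_circleMap x ρ θ)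
    have h3 : HasDerivAt (fun s => c + l ρ * (g s - c)) (l ρ * (r * dT u x r θ)) θ :=
      (((hasDerivAt_circle h hp hj hθ).sub_const c).const_mul (l ρ)).const_add c
    have := h2.unique (h3.congr_of_eventuallyEq (by
      filter_upwards [Ioo_mem_nhds hθ.1 hθ.2] with s hs
      exact hval ρ hρ s hs))
    rw [← this, circleMap_zero, mul_assoc, ← real_smul (x := ρ) (z := exp (θ * I) * I), map_smul,
      smul_eq_mul]
  have hA : ((g θ - c) / (r - ρ₀)) ^ 2 ≤ 2 * π * r * tauC u x r / (r - ρ₀) ^ 2 := by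
    rw [div_pow]
    gcongr
    exact sq_sub_mid_le h hg hp hj hθ
  have hB : D (exp (θ * I) * I) ^ 2 ≤ r ^ 2 / ρ₀ ^ 2 * dT u x r θ ^ 2 := by
    have hρ' : 0 < ρ := hρ0.trans hρ.1
    have hl0 : 0 ≤ l ρ := div_nonneg (by linarith [hρ.1]) hr0.le
    have hl1 : l ρ ≤ 1 := (div_le_one hr0).2 (by linarith [hρ.2])
    have heq : D (exp (θ * I) * I) = l ρ * (r * dT u x r θ) / ρ := by
      rw [← htan]; field_simp
    rw [heq, div_pow, mul_pow, mul_pow, div_mul_eq_mul_div]
    refine div_le_div₀ (by positivity) ?_ (by positivity)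
      (pow_le_pow_left₀ hρ0.le hρ.1.le 2)
    exact mul_le_of_le_one_left (by positivity) (pow_le_one₀ hl0 hl1)
  rw [gradSq_polar _ _ θ, ← hD, hrad]
  unfold major
  linarith

theorem countable_bad (t : ℕ → ℝ) (m : ℕ) :
    {θ : ℝ | ∃ i < m, ∃ k : ℤ, θ + k * (2 * π) = t i}.Countable := by
  refine (countable_range fun p : ℕ × ℤ => t p.1 - p.2 * (2 * π)).mono ?_
  rintro θ ⟨i, -, k, h⟩
  exact ⟨(i, k), by simp only; linarith⟩

theorem polar_eq (p : ℝ × ℝ) (x : ℂ) :
    x + Complex.polarCoord.symm p = circleMap x p.1 p.2 := by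
  rw [Complex.polarCoord_symm_apply, circleMap, exp_mul_I, ofReal_cos, ofReal_sin]

theorem segs_measure (hρ0 : 0 ≤ ρ₀) (hρr : ρ₀ ≤ r)
    (hlen : ∑ k ∈ Finset.range n, dist (S k).1 (S k).2 ≤ ℓ) :
    μH[1] (inner x ρ₀ n S ∪ spokes x r ρ₀ t m) ≤ ENNReal.ofReal (ρ₀ * ℓ + m * (r - ρ₀)) := by
  have h1 : μH[1] (inner x ρ₀ n S) ≤
      ENNReal.ofReal (∑ k ∈ Finset.range n, ρ₀ * dist (S k).1 (S k).2) := by
    rw [ENNReal.ofReal_sum_of_nonneg fun k _ => mul_nonneg hρ0 dist_nonneg]
    refine (measure_biUnion_finset_le _ _).trans (Finset.sum_le_sum fun k _ => ?_)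
    rw [hausdorffMeasure_segment, edist_dist, dist_add_left, dist_eq_norm, ← mul_sub, norm_mul,
      norm_real, Real.norm_of_nonneg hρ0, ← dist_eq_norm]
  have h2 : μH[1] (spokes x r ρ₀ t m) ≤ ENNReal.ofReal (∑ _i ∈ Finset.range m, (r - ρ₀)) := by
    rw [ENNReal.ofReal_sum_of_nonneg fun k _ => by linarith]
    refine (measure_biUnion_finset_le _ _).trans (Finset.sum_le_sum fun i _ => ?_)
    rw [hausdorffMeasure_segment, edist_dist]
    simp only [circleMap, dist_eq_norm]
    rw [add_sub_add_left_eq_sub, ← sub_mul, ← ofReal_sub, norm_mul, norm_exp_ofReal_mul_I, mul_one, norm_real,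
      Real.norm_eq_abs, abs_of_nonpos (by linarith), neg_sub]
  refine (measure_union_le _ _).trans ((add_le_add h1 h2).trans ?_)
  rw [← ENNReal.ofReal_add (Finset.sum_nonneg fun k _ => mul_nonneg hρ0 dist_nonneg)
    (Finset.sum_nonneg fun k _ => by linarith)]
  refine ENNReal.ofReal_le_ofReal ?_
  rw [← Finset.mul_sum, Finset.sum_const, Finset.card_range, nsmul_eq_mul]
  gcongr

theorem dirichlet_comp_le (h : IsGM K u) (hg : GoodRadius K u x r) (hp : IsPartition K x r t m)
    (hnet : IsNet t m ℓ n S J) (hρ0 : 0 < ρ₀) (hρr : ρ₀ < r) :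
    dirichlet ((K \ ball x r) ∪ (inner x ρ₀ n S ∪ spokes x r ρ₀ t m)) (comp u x r ρ₀ t J)
        (closedBall x r) ≤
      ENNReal.ofReal (r * (r - ρ₀) * (2 * π * (2 * π * r * tauC u x r / (r - ρ₀) ^ 2) +
        r * tauC u x r / ρ₀ ^ 2)) := by
  set v := comp u x r ρ₀ t J
  set T := inner x ρ₀ n S ∪ spokes x r ρ₀ t m with hT
  set A := closedBall x r \ ((K \ ball x r) ∪ T) with hA
  have hr : 0 < r := hg.pos
  have hAm : MeasurableSet A := measurableSet_closedBall.diff
    ((h.isClosed.measurableSet.diff measurableSet_ball).union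
      (isClosed_segs x r ρ₀ n S t m).measurableSet)
  set bad : Set (ℝ × ℝ) := ({ρ₀, r} : Set ℝ) ×ˢ univ ∪
    univ ×ˢ {θ : ℝ | ∃ i < m, ∃ k : ℤ, θ + k * (2 * π) = t i} with hbad
  have hnull : volume bad = 0 := by
    rw [hbad, Measure.volume_eq_prod]
    refine measure_union_null ?_ ?_ <;> rw [Measure.prod_prod]
    · rw [(Set.toFinite ({ρ₀, r} : Set ℝ)).measure_zero, zero_mul]
    · rw [(countable_bad t m).measure_zero, mul_zero]
  set F : ℝ × ℝ → ℝ≥0∞ := (Ioc ρ₀ r ×ˢ univ).indicator
    fun p => ENNReal.ofReal r * ENNReal.ofReal (major u x r ρ₀ p.2) with hF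
  have hpt : ∀ p : ℝ × ℝ, p ∈ polarCoord.target → p ∉ bad →
      ENNReal.ofReal p.1 • A.indicator (fun z => ENNReal.ofReal (gradSq v z))
        (x + Complex.polarCoord.symm p) ≤ F p := by
    rintro ⟨ρ, θ⟩ hp0 hnb
    rw [polarCoord_target, mem_prod, mem_Ioi] at hp0
    simp only [hbad, mem_union, mem_prod, mem_insert_iff, mem_singleton_iff, mem_univ, and_true,
      true_and, not_or, mem_ofPred_eq, not_exists, not_and] at hnb
    obtain ⟨⟨hne0, hner⟩, hgood⟩ := hnb
    rw [smul_eq_mul, polar_eq]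
    dsimp only
    by_cases hmem : circleMap x ρ θ ∈ A
    swap
    · simp [indicator_of_notMem hmem]
    rw [indicator_of_mem hmem]
    have hρr' : ρ ≤ r := by
      have := hmem.1
      rwa [mem_closedBall, dist_eq_norm, circleMap_norm_sub x hp0.1.le] at this
    rcases lt_or_gt_of_ne hne0 with hlt | hgt
    · have hz : circleMap x ρ θ ∉ T := fun h' => hmem.2 (Or.inr h')
      have hev := fderiv_comp_inner (u := u) hnet hρ0 hρr hp hz
        (show ‖circleMap x ρ θ - x‖ < ρ₀ by rw [circleMap_norm_sub x hp0.1.le]; exact hlt)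
      have h0 : gradSq v (circleMap x ρ θ) = 0 := by
        simp [gradSq, v, hev.fderiv_eq]
      simp [h0]
    · obtain ⟨j, hj, k, hk⟩ := exists_arc hp θ
      have hk' : θ + k * (2 * π) ∈ Ioo (t j) (t (j + 1)) := hk.resolve_left (hgood j hj k)
      have hρm : ρ ∈ Ioo ρ₀ r := ⟨hgt, lt_of_le_of_ne hρr' hner⟩
      have hle := gradSq_comp_le h hg hp hnet hρ0 hρr hj hk' hρm
      rw [circleMap_add_int] at hle
      have hper : major u x r ρ₀ (θ + k * (2 * π)) = major u x r ρ₀ θ := by
        unfold major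
        have hk2 : dT u x r (θ + k * (2 * π)) ^ 2 = dT u x r θ ^ 2 :=
          (dT_periodic u x r).int_mul k θ
        rw [hk2]
      rw [hF, indicator_of_mem (show (ρ, θ) ∈ Ioc ρ₀ r ×ˢ univ from ⟨⟨hgt, hρr'⟩, trivial⟩)]
      gcongr
      exact hper ▸ hle
  calc dirichlet ((K \ ball x r) ∪ T) v (closedBall x r)
      = ∫⁻ z, A.indicator (fun z => ENNReal.ofReal (gradSq v z)) z := (lintegral_indicator hAm _).symm
    _ = ∫⁻ z, A.indicator (fun z => ENNReal.ofReal (gradSq v z)) (x + z) :=
        (lintegral_add_left_eq_self _ x).symm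
    _ = ∫⁻ p in polarCoord.target, ENNReal.ofReal p.1 •
          A.indicator (fun z => ENNReal.ofReal (gradSq v z)) (x + Complex.polarCoord.symm p) :=
        (Complex.lintegral_comp_polarCoord_symm
          fun z => A.indicator (fun z => ENNReal.ofReal (gradSq v z)) (x + z)).symm
    _ ≤ ∫⁻ p in polarCoord.target, F p := by
        refine lintegral_mono_ae ?_
        filter_upwards [ae_restrict_mem polarCoord.open_target.measurableSet,
          ae_restrict_of_ae (measure_eq_zero_iff_ae_notMem.1 hnull)] with p hp1 hp2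
        exact hpt p hp1 hp2
    _ ≤ ∫⁻ p in Ioc ρ₀ r ×ˢ Ioo (-π) π,
          ENNReal.ofReal r * ENNReal.ofReal (major u x r ρ₀ p.2) := by
        rw [hF, setLIntegral_indicator (measurableSet_Ioc.prod MeasurableSet.univ)]
        refine lintegral_mono_set ?_
        rintro ⟨ρ, θ⟩ ⟨⟨h1, -⟩, h2⟩
        rw [polarCoord_target] at h2
        exact ⟨h1, h2.2⟩
    _ = ENNReal.ofReal (r * (r - ρ₀)) *
          ∫⁻ θ in Ioo (-π) π, ENNReal.ofReal (major u x r ρ₀ θ) := by
        have hmeas : Measurable fun θ => major u x r ρ₀ θ := by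
          have : Measurable fun θ => dT u x r θ := by
            have heq : (fun θ => dT u x r θ) = fun θ =>
                -Real.sin θ * fderiv ℝ u (circleMap x r θ) 1 +
                  Real.cos θ * fderiv ℝ u (circleMap x r θ) I := by
              funext θ
              have h2 : exp (θ * I) * I = (-Real.sin θ) • (1 : ℂ) + Real.cos θ • I := by
                rw [exp_mul_I, real_smul, real_smul]; push_cast
                linear_combination (Complex.sin θ) * I_mul_I
              rw [dT, h2, map_add, map_smul, map_smul, smul_eq_mul, smul_eq_mul]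
            rw [heq]
            have hc := (continuous_circleMap x r).measurable
            have h1 : Measurable fun θ => fderiv ℝ u (circleMap x r θ) 1 :=
              (measurable_fderiv_apply_const ℝ u 1).comp hc
            have h2 : Measurable fun θ => fderiv ℝ u (circleMap x r θ) I :=
              (measurable_fderiv_apply_const ℝ u I).comp hc
            fun_prop
          unfold major
          fun_prop
        rw [Measure.volume_eq_prod, ← Measure.prod_restrict,
          lintegral_prod_mul (f := fun _ : ℝ => ENNReal.ofReal r)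
            (g := fun θ => ENNReal.ofReal (major u x r ρ₀ θ)) aemeasurable_const
            hmeas.ennreal_ofReal.aemeasurable,
          setLIntegral_const, Real.volume_Ioc, ← ENNReal.ofReal_mul hr.le]
    _ ≤ _ := by
        have hint : IntervalIntegrable (fun θ => major u x r ρ₀ θ) volume (-π) π :=
          intervalIntegrable_const.add ((hg.intT _ _).const_mul _)
        have hπ : -π ≤ π := by linarith [Real.pi_pos]
        have hI : ∫ θ in (-π)..π, major u x r ρ₀ θ =
            2 * π * (2 * π * r * tauC u x r / (r - ρ₀) ^ 2) + r * tauC u x r / ρ₀ ^ 2 := by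
          have hper := integral_dT_sq u x r (-π)
          rw [show -π + 2 * π = π by ring] at hper
          unfold major
          rw [intervalIntegral.integral_add intervalIntegrable_const ((hg.intT _ _).const_mul _),
            intervalIntegral.integral_const, intervalIntegral.integral_const_mul, smul_eq_mul,
            ← hper]
          ring
        have heq : ∫⁻ θ in Ioo (-π) π, ENNReal.ofReal (major u x r ρ₀ θ) =
            ENNReal.ofReal (∫ θ in (-π)..π, major u x r ρ₀ θ) := by
          rw [intervalIntegral.integral_of_le hπ, Measure.restrict_congr_set Ioo_ae_eq_Ioc,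
            ofReal_integral_eq_lintegral_ofReal hint.1
              (Eventually.of_forall fun θ => major_nonneg hr.le θ)]
        rw [heq, hI, ← ENNReal.ofReal_mul (mul_nonneg hr.le (by linarith))]

/-- Comparison on compact sets for competitors keeping separation near infinity. -/
def Comparison (K : Set ℂ) (u : ℂ → ℝ) : Prop :=
  ∀ (S L : Set ℂ) (v : ℂ → ℝ), IsCompact S → IsClosed L → LocallyLipschitzOn Lᶜ v →
    L \ S = K \ S → (∀ z ∉ S ∪ K, v z = u z) →
    (∃ R₀ : ℝ, ∀ R, R₀ ≤ R → KeepsSeparation K L 0 R) → energy K u S ≤ energy L v S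

/-- Comparison with the network competitor. -/
theorem dir_add_len_le (hRep : Comparison K u) (h : IsGM K u) (hg : GoodRadius K u x r)
    (hp : IsPartition K x r t m) (hnet : IsNet t m ℓ n S J) (hρ0 : 0 < ρ₀) (hρr : ρ₀ < r)
    (hℓ : 0 ≤ ℓ) :
    dir K u x r + len K x r ≤ ρ₀ * ℓ + m * (r - ρ₀) +
      r * (r - ρ₀) * (2 * π * (2 * π * r * tauC u x r / (r - ρ₀) ^ 2) +
        r * tauC u x r / ρ₀ ^ 2) := by
  set T := inner x ρ₀ n S ∪ spokes x r ρ₀ t m with hT
  set L := (K \ ball x r) ∪ T with hL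
  have hr : 0 < r := hg.pos
  have hTsub : T ⊆ closedBall x r := segs_subset hρ0 hρr hnet.inDisc
  have hcl : IsClosed L :=
    (h.isClosed.inter isOpen_ball.isClosed_compl).union (isClosed_segs x r ρ₀ n S t m)
  have hLS : L \ closedBall x r = K \ closedBall x r := by
    ext z
    simp only [hL, Set.mem_sdiff, mem_union]
    constructor
    · rintro ⟨hz | hz, hn⟩
      · exact ⟨hz.1, hn⟩
      · exact absurd (hTsub hz) hn
    · rintro ⟨hz, hn⟩
      exact ⟨Or.inl ⟨hz, fun hb => hn (ball_subset_closedBall hb)⟩, hn⟩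
  have hout : ∀ z ∉ closedBall x r ∪ K, comp u x r ρ₀ t J z = u z := fun z hz => by
    refine comp_eq_of_le hρ0 hρr ?_
    simp only [mem_union, not_or, mem_closedBall, dist_eq_norm, not_le] at hz
    exact hz.1.le
  have hE := hRep (closedBall x r) L (comp u x r ρ₀ t J) (isCompact_closedBall x r) hcl
    (locallyLipschitz_comp h hnet hρ0 hρr hp) hLS hout
    ⟨‖x‖ + r + 1, fun R hR => keepsSeparation h.isClosed hnet hρ0 hρr hp (by linarith)⟩
  have hnat : ENNReal.ofReal (dir K u x r + len K x r) ≤ energy K u (closedBall x r) := by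
    rw [dir, len, ENNReal.ofReal_add ENNReal.toReal_nonneg ENNReal.toReal_nonneg,
      ENNReal.ofReal_toReal (h.dirichlet_lt_top x r).ne,
      ENNReal.ofReal_toReal (h.length_lt_top x r).ne]
    exact add_le_add (lintegral_mono_set (sdiff_subset_sdiff_left ball_subset_closedBall))
      (measure_mono (inter_subset_inter_right K ball_subset_closedBall))
  have hlen : μH[1] (L ∩ closedBall x r) ≤ ENNReal.ofReal (ρ₀ * ℓ + m * (r - ρ₀)) := by
    have hsub : L ∩ closedBall x r ⊆ (K ∩ sphere x r) ∪ T := by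
      rintro z ⟨hz | hz, hb⟩
      · refine Or.inl ⟨hz.1, le_antisymm (mem_closedBall.1 hb) ?_⟩
        exact not_lt.1 hz.2
      · exact Or.inr hz
    have : NullSingletonClass (μH[1] : Measure ℂ) :=
      Measure.nullSingletonClass_hausdorff ℂ zero_lt_one
    refine (measure_mono hsub).trans ((measure_union_le _ _).trans ?_)
    rw [hg.fin.measure_zero, zero_add]
    exact segs_measure hρ0.le hρr.le hnet.length
  have hτ := tauC_nonneg (u := u) (x := x) hr.le
  have hb : 0 ≤ r * (r - ρ₀) * (2 * π * (2 * π * r * tauC u x r / (r - ρ₀) ^ 2) +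
      r * tauC u x r / ρ₀ ^ 2) := by
    have : 0 ≤ r - ρ₀ := by linarith
    positivity
  have hb' : 0 ≤ ρ₀ * ℓ + m * (r - ρ₀) := by
    have : 0 ≤ r - ρ₀ := by linarith
    positivity
  refine (ENNReal.ofReal_le_ofReal_iff (add_nonneg hb' hb)).1 (hnat.trans (hE.trans ?_))
  rw [energy, ENNReal.ofReal_add hb' hb, add_comm]
  exact add_le_add hlen (dirichlet_comp_le h hg hp hnet hρ0 hρr)

end Vale.Agent.P128.Network
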